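import Vale.Agent.H81.BinPack.Defs

namespace Vale.Agent.H81.BinPack

theorem fracSol_total_nonneg {I : List ℚ} {z : List (List ℚ × ℝ)} (h : IsFracSol I z) :
    0 ≤ (z.map Prod.snd).sum := by
  apply List.sum_nonneg
  intro x hx
  obtain ⟨p, hp, rfl⟩ := List.mem_map.1 hx
  exact (h.1 p hp).2

theorem LP_le {I : List ℚ} {z : List (List ℚ × ℝ)} (h : IsFracSol I z) :
    LP I ≤ (z.map Prod.snd).sum := by
  apply csInf_le
  · refine ⟨0, ?_⟩
    rintro v ⟨z', hz', rfl⟩
    exact fracSol_total_nonneg hz'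
  · exact ⟨z, h, rfl⟩

theorem LP_nonneg (I : List ℚ) : 0 ≤ LP I := by
  apply Real.sInf_nonneg
  rintro v ⟨z', hz', rfl⟩
  exact fracSol_total_nonneg hz'

/-- the trivial packing, one item per bin -/
theorem isPacking_singletons {I : List ℚ} (h : ∀ a ∈ I, a ≤ 1) :
    IsPacking I (I.map fun a => [a]) := by
  constructor
  · have : ∀ J : List ℚ, (J.map fun a => [a]).flatten = J := by
      intro J
      induction J with
      | nil => rfl
      | cons a l ih => simp [ih]
    rw [this]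
  · intro b hb
    obtain ⟨a, ha, rfl⟩ := List.mem_map.1 hb
    simpa using h a ha

theorem le_OPT {I : List ℚ} (h1 : ∀ a ∈ I, a ≤ 1) {K : ℕ}
    (h : ∀ bins : List (List ℚ), IsPacking I bins → K ≤ bins.length) : K ≤ OPT I := by
  apply le_csInf
  · exact ⟨_, _, isPacking_singletons h1, rfl⟩
  · rintro k ⟨bins, hb, rfl⟩
    exact h bins hb

theorem OPT_le {I : List ℚ} {bins : List (List ℚ)} (h : IsPacking I bins) :
    OPT I ≤ bins.length :=
  Nat.sInf_le ⟨bins, h, rfl⟩

end Vale.Agent.H81.BinPack
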