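import Vale.Agent.H81.BinPack.Search

/-!
From natural-number data (sizes `a / L`) to the rational instance: lower bounds for
`OPT` from the verified search and upper bounds for `LP` from an explicit fractional
solution with weights `w / D`.
-/

namespace Vale.Agent.H81.BinPack

/-- the rational instance with sizes `a / L` -/
def toQ (L : ℕ) (items : List ℕ) : List ℚ := items.map fun a : ℕ => (a : ℚ) / L

theorem toQ_injective {L : ℕ} (hL : 0 < L) :
    Function.Injective (fun a : ℕ => (a : ℚ) / L) := by
  intro a b h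
  have hL' : (L : ℚ) ≠ 0 := by exact_mod_cast hL.ne'
  have h' : (a : ℚ) = b := by
    field_simp at h
    exact h
  exact_mod_cast h'

theorem toQ_sum (L : ℕ) (c : List ℕ) : (toQ L c).sum = (c.sum : ℚ) / L := by
  induction c with
  | nil => simp [toQ]
  | cons a l ih =>
    simp only [toQ, List.map_cons, List.sum_cons] at ih ⊢
    rw [ih]; push_cast; ring

theorem toQ_count {L : ℕ} (hL : 0 < L) (c : List ℕ) (a : ℕ) :
    (toQ L c).count ((a : ℚ) / L) = c.count a :=
  List.count_map_of_injective c _ (toQ_injective hL) a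

theorem toQ_valid {L : ℕ} (hL : 0 < L) {items : List ℕ}
    (h : ∀ a ∈ items, 0 < a ∧ a ≤ L) : ∀ s ∈ toQ L items, 0 < s ∧ s ≤ 1 := by
  intro s hs
  obtain ⟨a, ha, rfl⟩ := List.mem_map.1 hs
  have hL' : (0 : ℚ) < L := by exact_mod_cast hL
  obtain ⟨h1, h2⟩ := h a ha
  constructor
  · apply div_pos _ hL'
    exact_mod_cast h1
  · rw [div_le_one hL']
    exact_mod_cast h2

theorem natPackable_of_isPacking {L : ℕ} (hL : 0 < L) {items : List ℕ}
    {bins : List (List ℚ)} (h : IsPacking (toQ L items) bins) :
    NatPackable L bins.length items := by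
  obtain ⟨hperm, hsum⟩ := h
  have hL' : (0 : ℚ) < L := by exact_mod_cast hL
  let g : ℚ → ℕ := fun q => ⌊q * L⌋₊
  have hg : ∀ a : ℕ, g ((a : ℚ) / L) = a := by
    intro a
    show ⌊(a : ℚ) / L * L⌋₊ = a
    rw [div_mul_cancel₀ _ hL'.ne']
    exact Nat.floor_natCast a
  refine ⟨bins.map (List.map g), by simp, ?_, ?_⟩
  · have h1 : (bins.map (List.map g)).flatten = bins.flatten.map g := by
      rw [List.map_flatten]
    rw [h1]
    have h2 : (bins.flatten.map g).Perm ((toQ L items).map g) := hperm.map g
    have h3 : (toQ L items).map g = items := by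
      simp only [toQ, List.map_map]
      have : (g ∘ fun a : ℕ => (a : ℚ) / L) = id := by
        funext a
        exact hg a
      rw [this, List.map_id]
    rw [h3] at h2
    exact h2
  · intro b' hb'
    obtain ⟨b, hb, rfl⟩ := List.mem_map.1 hb'
    have hmem : ∀ s ∈ b, ((g s : ℕ) : ℚ) = s * L := by
      intro s hs
      have hs1 : s ∈ bins.flatten := List.mem_flatten.2 ⟨b, hb, hs⟩
      have hs2 : s ∈ toQ L items := hperm.subset hs1
      obtain ⟨a, _, rfl⟩ := List.mem_map.1 hs2
      rw [hg a, div_mul_cancel₀ _ hL'.ne']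
    have hcast : (((b.map g).sum : ℕ) : ℚ) = b.sum * L := by
      have : ∀ c : List ℚ, (∀ s ∈ c, ((g s : ℕ) : ℚ) = s * L) →
          (((c.map g).sum : ℕ) : ℚ) = c.sum * L := by
        intro c
        induction c with
        | nil => intro _; simp
        | cons x xs ih =>
          intro hc
          have hx := hc x (List.mem_cons_self)
          have hxs := ih (fun s hs => hc s (List.mem_cons_of_mem _ hs))
          simp only [List.map_cons, List.sum_cons]
          rw [Nat.cast_add, hx, hxs]; ring
      exact this b hmem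
    have hb1 : b.sum ≤ 1 := hsum b hb
    have : (((b.map g).sum : ℕ) : ℚ) ≤ (L : ℚ) := by
      rw [hcast]
      calc b.sum * (L : ℚ) ≤ 1 * L := by
            apply mul_le_mul_of_nonneg_right hb1 hL'.le
        _ = L := one_mul _
    exact_mod_cast this

/-- if the search finds no packing into `K` bins then `OPT ≥ K + 1` -/
theorem OPT_ge_of_canPack {L : ℕ} (hL : 0 < L) {items : List ℕ} {K : ℕ}
    (hle : ∀ a ∈ items, 0 < a ∧ a ≤ L) (h : canPack L K items = false) :
    K + 1 ≤ OPT (toQ L items) := by
  apply le_OPT (fun a ha => (toQ_valid hL hle a ha).2)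
  intro bins hb
  by_contra hlt
  have hk : bins.length ≤ K := by omega
  have h1 := natPackable_mono hk (natPackable_of_isPacking hL hb)
  have h2 := canPack_complete L K items h1
  rw [h] at h2
  exact Bool.false_ne_true h2

/-- the fractional solution with configurations `p.1` (natural sizes) and weights `p.2 / D` -/
noncomputable def fracOf (L D : ℕ) (zq : List (List ℕ × ℕ)) : List (List ℚ × ℝ) :=
  zq.map fun p => (toQ L p.1, (p.2 : ℝ) / D)

/-- decidable check that `zq` (weights `p.2 / D`) is feasible for the configuration LP -/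
def checkLP (L D : ℕ) (items : List ℕ) (zq : List (List ℕ × ℕ)) : Bool :=
  zq.all (fun p => p.1.all (fun s => decide (s ∈ items)) && decide (p.1.sum ≤ L)) &&
    items.all (fun s => decide (items.count s * D ≤ (zq.map fun p => p.2 * p.1.count s).sum))

theorem fracOf_total (L D : ℕ) (zq : List (List ℕ × ℕ)) :
    ((fracOf L D zq).map Prod.snd).sum = (((zq.map Prod.snd).sum : ℕ) : ℝ) / D := by
  induction zq with
  | nil => simp [fracOf]
  | cons p ps ih =>
    simp only [fracOf, List.map_cons, List.sum_cons] at ih ⊢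
    rw [ih]; push_cast; ring

theorem fracOf_cover {L D : ℕ} (hL : 0 < L) (zq : List (List ℕ × ℕ)) (a : ℕ) :
    ((fracOf L D zq).map fun p => p.2 * ((p.1.count ((a : ℚ) / L) : ℕ) : ℝ)).sum =
      (((zq.map fun p => p.2 * p.1.count a).sum : ℕ) : ℝ) / D := by
  induction zq with
  | nil => simp [fracOf]
  | cons p ps ih =>
    simp only [fracOf, List.map_cons, List.sum_cons] at ih ⊢
    rw [ih, toQ_count hL]; push_cast; ring

theorem isFracSol_of_check {L D : ℕ} (hL : 0 < L) (hD : 0 < D) {items : List ℕ}
    {zq : List (List ℕ × ℕ)} (h : checkLP L D items zq = true) :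
    IsFracSol (toQ L items) (fracOf L D zq) := by
  have hL' : (0 : ℚ) < L := by exact_mod_cast hL
  have hD' : (0 : ℝ) < D := by exact_mod_cast hD
  simp only [checkLP, Bool.and_eq_true, List.all_eq_true, decide_eq_true_eq] at h
  obtain ⟨h1, h2⟩ := h
  constructor
  · intro q hq
    obtain ⟨p, hp, rfl⟩ := List.mem_map.1 hq
    obtain ⟨h3, h4⟩ := h1 p hp
    refine ⟨⟨?_, ?_⟩, ?_⟩
    · intro s hs
      obtain ⟨a, ha, rfl⟩ := List.mem_map.1 hs
      exact List.mem_map.2 ⟨a, h3 a ha, rfl⟩
    · show (toQ L p.1).sum ≤ 1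
      rw [toQ_sum, div_le_one hL']
      exact_mod_cast h4
    · exact div_nonneg (Nat.cast_nonneg _) hD'.le
  · intro s hs
    obtain ⟨a, ha, rfl⟩ := List.mem_map.1 hs
    rw [fracOf_cover hL, toQ_count hL, le_div_iff₀ hD']
    exact_mod_cast h2 a ha

/-- the gap bound obtained from the two certificates -/
theorem gap_ge {L D : ℕ} (hL : 0 < L) (hD : 0 < D) {items : List ℕ}
    {zq : List (List ℕ × ℕ)} {K : ℕ} (hle : ∀ a ∈ items, 0 < a ∧ a ≤ L)
    (hpack : canPack L K items = false) (hlp : checkLP L D items zq = true) :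
    ((K : ℝ) + 1) - (((zq.map Prod.snd).sum : ℕ) : ℝ) / D ≤
      (OPT (toQ L items) : ℝ) - LP (toQ L items) := by
  have h1 : ((K + 1 : ℕ) : ℝ) ≤ (OPT (toQ L items) : ℝ) := by
    exact_mod_cast OPT_ge_of_canPack hL hle hpack
  have h2 := LP_le (isFracSol_of_check hL hD hlp)
  rw [fracOf_total] at h2
  push_cast at h1
  linarith

end Vale.Agent.H81.BinPack
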