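import Mathlib

/-!
Bin packing: optimal number of bins `OPT` and value `LP` of the Gilmore-Gomory
configuration linear program, for instances given as lists of rational sizes.
-/

namespace Vale.Agent.H81.BinPack

/-- `bins` is a packing of the item list `I`: the bins together hold exactly the
items of `I` (with multiplicity) and every bin has total size at most `1`. -/
def IsPacking (I : List ℚ) (bins : List (List ℚ)) : Prop :=
  bins.flatten.Perm I ∧ ∀ b ∈ bins, b.sum ≤ 1

/-- The least number of bins of a packing of `I`. -/
noncomputable def OPT (I : List ℚ) : ℕ :=
  sInf {k : ℕ | ∃ bins : List (List ℚ), IsPacking I bins ∧ bins.length = k}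

/-- A configuration of `I`: a finite multiset (given as a list, repetitions allowed
beyond the multiplicity in `I`) of sizes occurring in `I`, of total size at most `1`. -/
def IsConfig (I : List ℚ) (c : List ℚ) : Prop :=
  (∀ s ∈ c, s ∈ I) ∧ c.sum ≤ 1

/-- A feasible solution of the configuration LP of `I`: finitely many configurations
with nonnegative real weights such that every size `s` of `I` is covered at least as
often as it occurs in `I`. -/
def IsFracSol (I : List ℚ) (z : List (List ℚ × ℝ)) : Prop :=
  (∀ p ∈ z, IsConfig I p.1 ∧ 0 ≤ p.2) ∧
    ∀ s ∈ I, (I.count s : ℝ) ≤ (z.map fun p => p.2 * (p.1.count s : ℝ)).sum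

/-- The value of the configuration LP: the infimum of the total weight of a feasible
solution. -/
noncomputable def LP (I : List ℚ) : ℝ :=
  sInf {v : ℝ | ∃ z : List (List ℚ × ℝ), IsFracSol I z ∧ v = (z.map Prod.snd).sum}

end Vale.Agent.H81.BinPack
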