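import Vale.Agent.H81.BinPack.Basic

/-!
A verified exhaustive search certifying that a list of natural-number sizes cannot be
packed into `k` bins of capacity `L`.
-/

namespace Vale.Agent.H81.BinPack

/-- packability of natural-number sizes into exactly `k` bins of capacity `L` -/
def NatPackable (L k : ℕ) (items : List ℕ) : Prop :=
  ∃ bins : List (List ℕ), bins.length = k ∧ bins.flatten.Perm items ∧ ∀ b ∈ bins, b.sum ≤ L

/-- choose which of the pending items join the current bin (remaining capacity `cap`);
the others are handed to `next` -/
def fill (next : List ℕ → Bool) : List ℕ → ℕ → List ℕ → Bool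
  | [], _, skipped => next skipped.reverse
  | a :: l, cap, skipped =>
      (decide (a ≤ cap) && fill next l (cap - a) skipped) || fill next l cap (a :: skipped)

/-- exhaustive search: the first item opens a bin, `fill` chooses its companions -/
def canPack (L : ℕ) : ℕ → List ℕ → Bool
  | _, [] => true
  | 0, _ :: _ => false
  | k + 1, a :: l =>
      decide (a ≤ L) && (decide (a + l.sum ≤ (k + 1) * L) && fill (canPack L k) l (L - a) [])

theorem fill_complete (next : List ℕ → Bool) :
    ∀ (l : List ℕ) (cap : ℕ) (sk t r : List ℕ), (t ++ r).Perm l → t.sum ≤ cap →
      (∀ r' : List ℕ, r'.Perm (sk ++ r) → next r' = true) → fill next l cap sk = true := by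
  intro l
  induction l with
  | nil =>
    intro cap sk t r hp _ hn
    have h0 : t ++ r = [] := List.Perm.eq_nil hp
    have hr : r = [] := (List.append_eq_nil_iff.1 h0).2
    subst hr
    simp only [fill]
    apply hn
    simp
  | cons a l ih =>
    intro cap sk t r hp hs hn
    have ha : a ∈ t ++ r := hp.symm.subset (List.mem_cons_self)
    rcases List.mem_append.1 ha with hat | har
    · have h1 : t.Perm (a :: t.erase a) := List.perm_cons_erase hat
      have h2 : (t.erase a ++ r).Perm l := by
        have : (a :: (t.erase a ++ r)).Perm (a :: l) := by
          refine List.Perm.trans ?_ hp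
          have := List.Perm.append_right r h1
          simpa using this.symm
        exact List.Perm.cons_inv this
      have h3 : t.sum = a + (t.erase a).sum := by
        rw [h1.sum_eq]; simp
      have h4 : a ≤ cap := by omega
      have h5 : (t.erase a).sum ≤ cap - a := by omega
      have := ih (cap - a) sk (t.erase a) r h2 h5 hn
      simp [fill, h4, this]
    · have h1 : r.Perm (a :: r.erase a) := List.perm_cons_erase har
      have h2 : (t ++ r.erase a).Perm l := by
        have : (a :: (t ++ r.erase a)).Perm (a :: l) := by
          refine List.Perm.trans ?_ hp
          have h6 : (t ++ r).Perm (t ++ a :: r.erase a) := List.Perm.append_left t h1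
          exact (h6.trans List.perm_middle).symm
        exact List.Perm.cons_inv this
      have h7 : ∀ r' : List ℕ, r'.Perm ((a :: sk) ++ r.erase a) → next r' = true := by
        intro r' hr'
        apply hn
        refine hr'.trans ?_
        have h8 : (sk ++ r).Perm (sk ++ a :: r.erase a) := List.Perm.append_left sk h1
        refine List.Perm.trans ?_ h8.symm
        simpa using (List.perm_middle (l₁ := sk) (l₂ := r.erase a) (a := a)).symm
      have := ih cap (a :: sk) t (r.erase a) h2 hs h7
      simp [fill, this]

theorem sum_flatten_le (L : ℕ) : ∀ bins : List (List ℕ), (∀ b ∈ bins, b.sum ≤ L) →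
    bins.flatten.sum ≤ bins.length * L := by
  intro bins
  induction bins with
  | nil => intro _; simp
  | cons b bs ih =>
    intro h
    have h1 := h b (List.mem_cons_self)
    have h2 := ih (fun c hc => h c (List.mem_cons_of_mem _ hc))
    simp only [List.flatten_cons, List.sum_append, List.length_cons]
    nlinarith

theorem canPack_complete (L : ℕ) :
    ∀ (k : ℕ) (items : List ℕ), NatPackable L k items → canPack L k items = true := by
  intro k
  induction k with
  | zero =>
    rintro items ⟨bins, hlen, hperm, _⟩
    have hb : bins = [] := List.length_eq_zero_iff.1 hlen
    subst hb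
    have : items = [] := by simpa using hperm.symm
    subst this
    simp [canPack]
  | succ k ih =>
    rintro items ⟨bins, hlen, hperm, hsum⟩
    cases items with
    | nil => simp [canPack]
    | cons a l =>
      have ha : a ∈ bins.flatten := hperm.symm.subset (List.mem_cons_self)
      obtain ⟨b, hb, hab⟩ := List.mem_flatten.1 ha
      have hb1 : bins.Perm (b :: bins.erase b) := List.perm_cons_erase hb
      have hb2 : b.Perm (a :: b.erase a) := List.perm_cons_erase hab
      have hfl : bins.flatten.Perm (b ++ (bins.erase b).flatten) := by
        simpa using List.Perm.flatten hb1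
      have h2 : (b.erase a ++ (bins.erase b).flatten).Perm l := by
        have : (a :: (b.erase a ++ (bins.erase b).flatten)).Perm (a :: l) := by
          refine List.Perm.trans ?_ hperm
          refine List.Perm.trans ?_ hfl.symm
          have := List.Perm.append_right (bins.erase b).flatten hb2
          simpa using this.symm
        exact List.Perm.cons_inv this
      have hbs : b.sum ≤ L := hsum b hb
      have h3 : b.sum = a + (b.erase a).sum := by
        rw [hb2.sum_eq]; simp
      have h4 : a ≤ L := by omega
      have h5 : (b.erase a).sum ≤ L - a := by omega
      have hvol : a + l.sum ≤ (k + 1) * L := by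
        have h6 := sum_flatten_le L bins hsum
        have h7 : bins.flatten.sum = a + l.sum := by
          rw [hperm.sum_eq]; simp
        rw [hlen] at h6
        omega
      have hlen' : (bins.erase b).length = k := by
        rw [List.length_erase_of_mem hb, hlen]; rfl
      have hn : ∀ r' : List ℕ, r'.Perm ([] ++ (bins.erase b).flatten) → canPack L k r' = true := by
        intro r' hr'
        apply ih
        refine ⟨bins.erase b, hlen', ?_, ?_⟩
        · simpa using hr'.symm
        · intro c hc
          exact hsum c (List.mem_of_mem_erase hc)
      have := fill_complete (canPack L k) l (L - a) [] (b.erase a) (bins.erase b).flatten h2 h5 hn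
      simp [canPack, h4, hvol, this]

theorem natPackable_mono {L k k' : ℕ} {items : List ℕ} (hk : k ≤ k')
    (h : NatPackable L k items) : NatPackable L k' items := by
  obtain ⟨bins, hlen, hperm, hsum⟩ := h
  refine ⟨bins ++ List.replicate (k' - k) [], ?_, ?_, ?_⟩
  · simp [hlen]; omega
  · simpa using hperm
  · intro b hb
    rcases List.mem_append.1 hb with h1 | h1
    · exact hsum b h1
    · have : b = [] := List.eq_of_mem_replicate h1
      subst this
      simp

end Vale.Agent.H81.BinPack
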