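import Mathlib
import Vale.Agent.H50.BinPack.Defs
import Vale.Agent.H15.BP.ChainData
import Vale.Agent.H5.BinPack.Inst
import Vale.Agent.H57.PairBound

/-!
# Support for P302: the 94-item chain instance, for every optimum from 33 on

The three-level chain of pair-into-bins gadgets with 94 items (sizes (D + x) / (3 D),
D = 1600000000000) has OPT = 33 and OPT - LP at least 2083/1728.  Padding with items of
size 1 gives, for every m >= 33, an instance with optimum exactly m and the same bound.
The gadget data and their checks are those of the first P302 hand-in of this run.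
-/

namespace Vale.Agent.H81.BinPack.X94All

open Vale.Agent.H50.BinPack Vale.Agent.H5.BinPack Vale.Agent.H15.BP Vale.Agent.H57.PairBound

/-- bottom gadget: a 3-bin gadget padded with three dead bins and dummies -/
def g3 : Gadget :=
  ⟨[35, 35, 35, 42, 45, 51], [18, 21, 22, 23, 25, 27, 34, 34, 34, 34, 34, 34, 34], 17⟩

/-- the 10-bin gadget used on levels 2 and 3 -/
def g10 : Gadget :=
  ⟨[229, 245, 252, 258, 262, 268, 293, 361, 367, 381],
    [98, 123, 125, 129, 131, 134, 144, 144, 174, 179, 183, 187, 190, 193, 193, 194, 194, 194,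
      194, 194, 194], 97⟩

theorem g3_ok : GadgetOK 381 4 g3 := by
  refine ⟨by decide, by decide, by decide, by decide, by decide, ?_⟩
  intro F hb ho hfit
  exact pair_bound _ _ _ (by decide +kernel) F hb ho hfit

theorem g10_ok : GadgetOK 381 4 g10 := by
  refine ⟨by decide, by decide, by decide, by decide, by decide, ?_⟩
  intro F hb ho hfit
  exact pair_bound _ _ _ (by decide +kernel) F hb ho hfit

theorem gadgets_ok : ∀ g ∈ [g3, g10, g10], GadgetOK 381 4 g := by
  intro g hg
  simp only [List.mem_cons, List.not_mem_nil, or_false] at hg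
  rcases hg with rfl | rfl | rfl
  · exact g3_ok
  · exact g10_ok
  · exact g10_ok

theorem items_eq : (chainItems 4 [g3, g10, g10]).map (dev 1000) = X94Items := by
  decide +kernel

/-- For every m >= 33: an instance with optimum exactly m and OPT - LP at least 2083/1728. -/
theorem X94_all (m : ℕ) (hm : 33 ≤ m) : ∃ I : List ℚ, (∀ a ∈ I, 0 < a ∧ a ≤ 1) ∧ OPT I = m ∧
    (2083 : ℝ) / 1728 ≤ (OPT I : ℝ) - LP I :=
  X94_gap_all (dev 1000) (chainItems 4 [g3, g10, g10]) items_eq
    (fun triples h1 h2 h3 =>
      chain_deficient 1000 381 4 [g3, g10, g10] (by norm_num) (by norm_num) gadgets_ok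
        triples h1 h2 h3) m hm

end Vale.Agent.H81.BinPack.X94All
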